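import Vale.Agent.P318.H308.Main4
import Vale.Agent.P318.H6.Spec
import Vale.Agent.P318.H336.SpecCut
import Vale.Agent.P318.H508.SpecSDP

/-! P318, Q2: the transfer in helper6's form, with the analytic inputs discharged. -/

open Finset Filter

namespace Vale.Agent.P318.H308

open Vale.Agent.P318.H867 Vale.Agent.P318.H937 Vale.Agent.P318.H6

theorem code4_iff_code6 : SpecCODE4 ↔ SpecCODE6 := Iff.rfl

theorem spec_transfer6 : SpecTRANSFER6 := by
  intro h1 h2 h3
  obtain ⟨c, hc, h⟩ := main_hasGap4 h1 h2 h3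
  obtain ⟨n₀, hn₀⟩ := eventually_atTop.1 h
  refine ⟨c, hc, n₀, fun n hn => ?_⟩
  obtain ⟨cap, ha, hb, hd, he, hf⟩ := hn₀ n hn
  exact ⟨cap, ⟨hb, ha, hd⟩, he, hf⟩

/-- existence form, only the code left -/
theorem main6_of_code (hCODE : SpecCODE6) : SpecMAIN6 :=
  spec_transfer6 hCODE Vale.Agent.P318.H336.spec_cut Vale.Agent.P318.H508.spec_sdp

/-- supremum form, only the code left -/
theorem main_gap6_of_code (hCODE : SpecCODE6) : ∃ c : ℝ, 0 < c ∧ ∃ n₀ : ℕ, ∀ n ≥ n₀,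
    Real.log n ^ c ≤ gap n :=
  main_gap4 hCODE Vale.Agent.P318.H336.spec_cut Vale.Agent.P318.H508.spec_sdp

end Vale.Agent.P318.H308

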