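import Vale.Agent.P318.H308.Main

/-! P318, Q2: the transfer for codes of dimension `2 ^ O(ℓ)`: `g(n) ≥ (log n)^c`. -/

open Finset Filter

namespace Vale.Agent.P318.H308

open Vale.Agent.P318.H867 Vale.Agent.P318.H937

/-- the code exists with dimension `2 ^ (C ℓ)` (`ℓ = log₂ G`); all other parameters as in
`SpecCODE` -/
def SpecCODE4 : Prop := ∃ C ℓ0 : ℕ, ∀ ℓ ≥ ℓ0, ∃ κ s k D : ℕ,
  2 ^ (2 * ℓ + 30) ≤ κ ∧ κ ≤ 2 ^ (4 * ℓ + 60) ∧ 6 * ℓ + 100 ≤ s ∧ s ≤ C * ℓ ∧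
  2 ^ (4 * ℓ + 70) ≤ k ∧ D ≤ 2 ^ (C * ℓ) ∧
  ∃ (X : Type) (_ : AddCommGroup X) (_ : Module (ZMod 2) X) (_ : Fintype X) (_ : DecidableEq X)
    (V V1 : Submodule (ZMod 2) (X → ZMod 2)) (Γ : Type) (g : Γ → X → ZMod 2),
    GoodCode X κ s (2 ^ (2 * ℓ + 20)) k D ((1 / 2) ^ (6 * ℓ + 80)) V V1 Γ g

/-- **Final asymptotics**, power form. -/
theorem final_asymptotics4 {C c₁ : ℝ} (hC : 0 < C) (hc₁ : 0 < c₁)
    (H : ∀ᶠ L : ℝ in atTop, ∃ N : ℕ, (N : ℝ) ≤ Real.exp (Real.exp (C * L)) ∧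
      ∀ n : ℕ, N ≤ n → HasGap (Fin n) (Real.exp (c₁ * L))) :
    ∃ c : ℝ, 0 < c ∧ ∀ᶠ n : ℕ in atTop, HasGap (Fin n) (Real.log n ^ c) := by
  refine ⟨c₁ / C, by positivity, ?_⟩
  have hll : Tendsto (fun n : ℕ => Real.log (Real.log n) / C) atTop atTop :=
    (Real.tendsto_log_atTop.comp (Real.tendsto_log_atTop.comp
      tendsto_natCast_atTop_atTop)).atTop_div_const hC
  have hpos : ∀ᶠ n : ℕ in atTop, (1 : ℝ) < Real.log n := by
    have := Real.tendsto_log_atTop.comp (tendsto_natCast_atTop_atTop (R := ℝ))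
    exact this.eventually_gt_atTop 1
  filter_upwards [hll.eventually H, hpos, eventually_gt_atTop 0] with n hn hn1 hn0
  obtain ⟨N, h3, h4⟩ := hn
  have hlog0 : 0 < Real.log n := by linarith
  have h6 : N ≤ n := by
    have h7 : (N : ℝ) ≤ n := by
      refine h3.trans (le_of_eq ?_)
      rw [mul_div_cancel₀ _ hC.ne', Real.exp_log hlog0, Real.exp_log (by exact_mod_cast hn0)]
    exact_mod_cast h7
  refine (h4 n h6).mono (le_of_eq ?_)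
  rw [Real.rpow_def_of_pos hlog0]
  congr 1
  ring

/-- the transfer in terms of `HasGap`, power form -/
theorem main_hasGap4 (hCODE : SpecCODE4) (hCUT : SpecCUT) (hSDP : SpecSDP) :
    ∃ c : ℝ, 0 < c ∧ ∀ᶠ n : ℕ in atTop, HasGap (Fin n) (Real.log n ^ c) := by
  obtain ⟨C, ℓ0, hC⟩ := hCODE
  refine final_asymptotics4 (C := C + 1) (c₁ := 1 / 2) (by positivity) (by norm_num) ?_
  have hfl : Tendsto (fun L : ℝ => ⌊L⌋₊) atTop atTop := tendsto_nat_floor_atTop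
  filter_upwards [num_limA C, hfl.eventually (num_limB C),
    hfl.eventually_ge_atTop (max 10 ℓ0), eventually_ge_atTop (3 : ℝ)] with L hA1 hB1 hℓ hL3
  have hℓL : ((⌊L⌋₊ : ℕ) : ℝ) ≤ L := Nat.floor_le (by linarith)
  have hLℓ : L - 1 ≤ (⌊L⌋₊ : ℕ) := by
    have := Nat.lt_floor_add_one L
    linarith
  generalize ⌊L⌋₊ = ℓ at hB1 hℓ hℓL hLℓ
  have hℓ10 : 10 ≤ ℓ := (le_max_left _ _).trans hℓ
  obtain ⟨κ, s, k, D, h1, h2, h3, h4, h5, h6, X, _, _, _, _, V, V1, Γ, g, hgood⟩ :=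
    hC ℓ ((le_max_right _ _).trans hℓ)
  have h7 : 100 * s ≤ κ := (Nat.mul_le_mul_left 100 h4).trans (hB1.trans h1)
  have hlog2 : Real.log 2 < 0.7 := by linarith [Real.log_two_lt_d9]
  have hlog2' : 0 < Real.log 2 := Real.log_pos (by norm_num)
  have h8 : ((2 ^ D : ℕ) : ℝ) = Real.exp (D * Real.log 2) := by
    rw [mul_comm, Real.exp_mul, Real.exp_log (by norm_num), Real.rpow_natCast]
    norm_num
  have h9 : (D : ℝ) ≤ Real.exp ((C * ℓ : ℕ) * Real.log 2) := by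
    rw [mul_comm, Real.exp_mul, Real.exp_log (by norm_num), Real.rpow_natCast]
    exact_mod_cast h6
  refine ⟨2 ^ D, ?_, fun n hn => ?_⟩
  · rw [h8]
    clear hgood h6 h5 h3 h2 h1 h7 hC hA1 hB1 hCUT hSDP
    apply Real.exp_le_exp.2
    have h10 : (D : ℝ) * Real.log 2 ≤ D := by
      have : (0 : ℝ) ≤ D := Nat.cast_nonneg _
      nlinarith
    refine h10.trans (h9.trans (Real.exp_le_exp.2 ?_))
    push_cast
    have h11 : (C : ℝ) * ℓ ≤ C * L := mul_le_mul_of_nonneg_left hℓL (Nat.cast_nonneg _)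
    have h12 : (0 : ℝ) ≤ (C : ℝ) * ℓ := by positivity
    nlinarith
  · exact (step hCUT hSDP hgood hℓ10 h1 h2 h3 h7 h5 hn).mono
      (num_gap (by omega) h4 hℓL hLℓ hL3 hA1)

/-- **`g(n) ≥ (log n)^c`** from the three ingredients. -/
theorem main_gap4 (hCODE : SpecCODE4) (hCUT : SpecCUT) (hSDP : SpecSDP) :
    ∃ c : ℝ, 0 < c ∧ ∃ n₀ : ℕ, ∀ n ≥ n₀, Real.log n ^ c ≤ gap n := by
  obtain ⟨c, hc, h⟩ := main_hasGap4 hCODE hCUT hSDP
  obtain ⟨n₀, hn₀⟩ := eventually_atTop.1 h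
  exact ⟨c, hc, n₀, fun n hn => le_gap (hn₀ n hn)⟩

end Vale.Agent.P318.H308
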