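import Vale.Agent.P318.H308.Transfer

/-! P318, Q2: from a code with a test to `g(n)`, and the final asymptotics. -/

open Finset Filter

set_option linter.unusedSectionVars false

namespace Vale.Agent.P318.H308

open Vale.Agent.P318.H867 Vale.Agent.P318.H794

section code

variable {V Ω : Type*} [AddCommGroup V] [Fintype V] [DecidableEq V] [Fintype Ω]

/-- capacities: probability that the test element is `u + v`, plus `M` on related pairs -/
noncomputable def codeCap (g : Ω → V) (r : V → V → Prop) (M : ℝ) (u v : V) : ℝ :=
  open Classical in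
  if u = v then 0 else
    ((univ.filter fun w => g w = u + v).card : ℝ) / Fintype.card Ω + (if r u v then M else 0)

/-- **The instance of a code with a test.** `V` is a finite elementary abelian 2-group, `g w`,
`w ∈ Ω`, the test elements, `r` a symmetric relation (same orbit). If every balanced `r`-invariant
set `S` satisfies `#{(u, w) : u ∈ S ≠ u + g w ∈ S} ≥ 2 θ |V| |Ω|`, and `d` is a negative type
semimetric which vanishes on `r`, has `∑_w ∑_u d (u, u + g w) ≤ A |V| |Ω|` and at most `|V|² / 8`
pairs at distance `< 1`, then the gap is at least `θ / (16 A)` for all `n ≥ |V|`. -/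
theorem hasGap_of_test [Nonempty Ω] (h2 : ∀ v : V, v + v = 0) (g : Ω → V) (r : V → V → Prop)
    (hr : ∀ u v, r u v → r v u) {θ A : ℝ} (hθ : 0 < θ) (hA : 0 < A)
    (hN : 2 ≤ Fintype.card V)
    (hcut : ∀ S : Finset V, (∀ u v, r u v → u ∈ S → v ∈ S) →
      Fintype.card V ≤ 3 * S.card → 3 * S.card ≤ 2 * Fintype.card V →
      2 * θ * Fintype.card V * Fintype.card Ω ≤
        ((univ : Finset (V × Ω)).filter fun p => ¬(p.1 ∈ S ↔ p.1 + g p.2 ∈ S)).card)
    {d : V → V → ℝ} (hd : IsNegTypeSemimetric d) (hdr : ∀ u v, r u v → d u v = 0)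
    (hcost : ∑ w, ∑ u, d u (u + g w) ≤ A * Fintype.card V * Fintype.card Ω)
    (hfar : 8 * (univ.filter fun p : V × V => d p.1 p.2 < 1).card ≤ Fintype.card V ^ 2)
    {n : ℕ} (hn : Fintype.card V ≤ n) : HasGap (Fin n) (θ / (16 * A)) := by
  classical
  have hΩ : (0 : ℝ) < Fintype.card Ω := by exact_mod_cast Fintype.card_pos
  have hV : (0 : ℝ) < Fintype.card V := by
    have : 0 < Fintype.card V := by omega
    exact_mod_cast this
  set M : ℝ := θ * Fintype.card V with hM
  have hM0 : 0 ≤ M := by positivity
  have hc0 : ∀ u v, 0 ≤ codeCap g r M u v := by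
    intro u v
    unfold codeCap
    split_ifs <;> positivity
  have hcs : ∀ u v, codeCap g r M u v = codeCap g r M v u := by
    intro u v
    unfold codeCap
    by_cases h : u = v
    · rw [if_pos h, if_pos h.symm]
    · rw [if_neg h, if_neg (Ne.symm h), add_comm u v]
      by_cases h' : r u v
      · rw [if_pos h', if_pos (hr _ _ h')]
      · rw [if_neg h', if_neg (fun h'' => h' (hr _ _ h''))]
  have hsub : ∀ u v w : V, w = u + v ↔ v = u + w := by
    intro u v w
    constructor
    · rintro rfl
      rw [← add_assoc, h2, zero_add]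
    · rintro rfl
      rw [← add_assoc, h2, zero_add]
  have hdd : ∀ u, d u u = 0 := by
    obtain ⟨⟨x, hx⟩, -⟩ := hd
    intro u
    rw [hx]
    simp
  refine prune_fin (c := codeCap g r M) (d := d) hc0 hcs (fun u => if_pos rfl) hN hθ hA
    (fun S hS1 hS2 => ?_) hd ?_ hfar hn
  · -- cuts
    by_cases hinv : ∀ u v, r u v → u ∈ S → v ∈ S
    · have h1 := hcut S hinv hS1 hS2
      -- counts
      have h3 : ((univ : Finset (V × Ω)).filter fun p => p.1 ∈ S ∧ p.1 + g p.2 ∉ S).card =
          ((univ : Finset (V × Ω)).filter fun p => p.1 ∉ S ∧ p.1 + g p.2 ∈ S).card := by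
        refine card_bij (fun p _ => (p.1 + g p.2, p.2)) ?_ ?_ ?_
        · intro p hp
          simp only [mem_filter, mem_univ, true_and] at hp ⊢
          rw [add_assoc, h2, add_zero]
          exact ⟨hp.2, hp.1⟩
        · intro p _ p' _ hpp
          rw [Prod.mk.injEq] at hpp
          obtain ⟨ha, hb⟩ := hpp
          rw [hb] at ha
          exact Prod.ext (add_right_cancel ha) hb
        · intro p hp
          simp only [mem_filter, mem_univ, true_and] at hp
          refine ⟨(p.1 + g p.2, p.2), ?_, ?_⟩
          · simp only [mem_filter, mem_univ, true_and]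
            rw [add_assoc, h2, add_zero]
            exact ⟨hp.2, hp.1⟩
          · simp only [add_assoc, h2, add_zero]
      have h4 : ((univ : Finset (V × Ω)).filter fun p => ¬(p.1 ∈ S ↔ p.1 + g p.2 ∈ S)).card =
          ((univ : Finset (V × Ω)).filter fun p => p.1 ∈ S ∧ p.1 + g p.2 ∉ S).card +
          ((univ : Finset (V × Ω)).filter fun p => p.1 ∉ S ∧ p.1 + g p.2 ∈ S).card := by
        rw [← card_union_of_disjoint]
        · congr 1
          ext p
          simp only [mem_filter, mem_univ, true_and, mem_union]
          tauto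
        · rw [disjoint_filter]
          intro p _ hp hp'
          exact hp'.1 hp.1
      have h5 : θ * Fintype.card V * Fintype.card Ω ≤
          ((univ : Finset (V × Ω)).filter fun p => p.1 ∈ S ∧ p.1 + g p.2 ∉ S).card := by
        rw [h4, ← h3] at h1
        push_cast at h1
        linarith
      have h6 : (((univ : Finset (V × Ω)).filter fun p => p.1 ∈ S ∧ p.1 + g p.2 ∉ S).card : ℝ) =
          ∑ u ∈ S, ∑ v ∈ Sᶜ, ((univ.filter fun w => g w = u + v).card : ℝ) := by
        have h7 : ∀ u, (∑ v ∈ Sᶜ, ((univ.filter fun w => g w = u + v).card : ℝ)) =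
            ((univ.filter fun w => u + g w ∉ S).card : ℝ) := by
          intro u
          have h8 : (univ.filter fun w => u + g w ∉ S) =
              Sᶜ.biUnion fun v => univ.filter fun w => g w = u + v := by
            ext w
            simp only [mem_filter, mem_univ, true_and, mem_biUnion, mem_compl]
            constructor
            · intro h
              exact ⟨u + g w, h, (hsub u (u + g w) (g w)).2 rfl⟩
            · rintro ⟨v, hv, hw⟩
              rw [hsub] at hw
              rwa [← hw]
          rw [h8, card_biUnion]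
          · push_cast
            rfl
          · intro a _ b _ hab
            rw [Function.onFun, disjoint_filter]
            intro w _ hw hw'
            rw [hw] at hw'
            exact hab (add_left_cancel hw')
        rw [sum_congr rfl fun u _ => h7 u]
        have h9 : ((univ : Finset (V × Ω)).filter fun p => p.1 ∈ S ∧ p.1 + g p.2 ∉ S) =
            (S.sigma (fun u => univ.filter fun w => u + g w ∉ S)).map
              ((Equiv.sigmaEquivProd V Ω).toEmbedding) := by
          ext p
          simp only [mem_filter, mem_univ, true_and, Finset.mem_map, mem_sigma]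
          constructor
          · rintro ⟨ha, hb⟩
            exact ⟨⟨p.1, p.2⟩, ⟨ha, hb⟩, rfl⟩
          · rintro ⟨⟨a, b⟩, ⟨ha, hb⟩, rfl⟩
            exact ⟨ha, hb⟩
        rw [h9, card_map, card_sigma]
        push_cast
        rfl
      rw [h6] at h5
      have h10 : (∑ u ∈ S, ∑ v ∈ Sᶜ, ((univ.filter fun w => g w = u + v).card : ℝ)) /
          Fintype.card Ω ≤ cutCap (codeCap g r M) S := by
        rw [cutCap, sum_div]
        refine sum_le_sum fun u hu => ?_
        rw [sum_div]
        refine sum_le_sum fun v hv => ?_
        have huv : u ≠ v := by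
          rintro rfl
          exact (mem_compl.1 hv) hu
        unfold codeCap
        rw [if_neg huv]
        have : (0 : ℝ) ≤ if r u v then M else 0 := by split_ifs; exacts [hM0, le_rfl]
        linarith
      refine le_trans ?_ h10
      rw [le_div_iff₀ hΩ]
      exact h5
    · push Not at hinv
      obtain ⟨u, v, huv, hu, hv⟩ := hinv
      have h1 : codeCap g r M u v ≤ cutCap (codeCap g r M) S := by
        rw [cutCap]
        calc codeCap g r M u v ≤ ∑ j ∈ Sᶜ, codeCap g r M u j :=
              single_le_sum (f := fun j => codeCap g r M u j) (fun j _ => hc0 u j)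
                (mem_compl.2 hv)
          _ ≤ _ := single_le_sum (f := fun i => ∑ j ∈ Sᶜ, codeCap g r M i j)
              (fun i _ => sum_nonneg fun j _ => hc0 i j) hu
      refine le_trans ?_ h1
      have hne : u ≠ v := by
        rintro rfl
        exact hv hu
      unfold codeCap
      rw [if_neg hne, if_pos huv]
      have : (0 : ℝ) ≤ ((univ.filter fun w => g w = u + v).card : ℝ) / Fintype.card Ω := by
        positivity
      linarith
  · -- cost
    have h1 : ∀ u v, codeCap g r M u v * d u v =
        ((univ.filter fun w => g w = u + v).card : ℝ) * d u v / Fintype.card Ω := by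
      intro u v
      unfold codeCap
      by_cases h : u = v
      · rw [if_pos h, h, hdd]
        simp
      · rw [if_neg h]
        by_cases h' : r u v
        · rw [hdr u v h']
          simp
        · rw [if_neg h', add_zero]
          ring
    simp_rw [h1, ← sum_div]
    rw [div_le_iff₀ hΩ]
    refine le_trans (le_of_eq ?_) hcost
    have h3 : ∀ u v, ((univ.filter fun w => g w = u + v).card : ℝ) * d u v =
        ∑ w, if v = u + g w then d u v else 0 := by
      intro u v
      rw [← sum_filter, sum_const, nsmul_eq_mul]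
      congr 2
      congr 1
      ext w
      simp only [mem_filter, mem_univ, true_and]
      exact hsub u v (g w)
    simp_rw [h3]
    have h4 : ∀ u, ∑ v, ∑ w, (if v = u + g w then d u v else 0) = ∑ w, d u (u + g w) := by
      intro u
      rw [sum_comm]
      refine sum_congr rfl fun w _ => ?_
      rw [sum_ite_eq' univ (u + g w)]
      simp
    simp_rw [h4]
    rw [sum_comm]

end code

/-- **Final asymptotics.** -/
theorem final_asymptotics {C c₁ : ℝ} (hc₁ : 0 < c₁)
    (H : ∀ᶠ L : ℝ in atTop, ∃ N : ℕ, (N : ℝ) ≤ Real.exp (Real.exp (C * (L * Real.log L ^ 2))) ∧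
      ∀ n : ℕ, N ≤ n → HasGap (Fin n) (Real.exp (c₁ * L))) :
    ∃ c : ℝ, 0 < c ∧ ∀ᶠ n : ℕ in atTop, HasGap (Fin n)
      (Real.exp (c * (Real.log (Real.log n) / Real.log (Real.log (Real.log n)) ^ 2))) := by
  set C' : ℝ := max C 1 with hC'
  have hC'1 : 1 ≤ C' := le_max_right _ _
  have hC'0 : 0 < C' := by linarith
  have hCC' : C ≤ C' := le_max_left _ _
  refine ⟨c₁ / C', by positivity, ?_⟩
  -- the function `l ↦ l / (C' (log l)²)` tends to infinity
  have hlim : Tendsto (fun l : ℝ => l / (C' * Real.log l ^ 2)) atTop atTop := by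
    have h1 : Tendsto (fun x : ℝ => Real.exp x / x ^ 2) atTop atTop :=
      Real.tendsto_exp_div_pow_atTop 2
    have h2 : Tendsto (fun l : ℝ => Real.exp (Real.log l) / Real.log l ^ 2) atTop atTop :=
      h1.comp Real.tendsto_log_atTop
    have h3 : Tendsto (fun l : ℝ => (1 / C') * (Real.exp (Real.log l) / Real.log l ^ 2))
        atTop atTop := h2.const_mul_atTop (by positivity)
    refine h3.congr' ?_
    filter_upwards [eventually_gt_atTop (0 : ℝ)] with l hl
    rw [Real.exp_log hl]
    field_simp
  have hll : Tendsto (fun n : ℕ => Real.log (Real.log n)) atTop atTop :=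
    Real.tendsto_log_atTop.comp (Real.tendsto_log_atTop.comp tendsto_natCast_atTop_atTop)
  have hev : ∀ᶠ l : ℝ in atTop, 1 ≤ Real.log l ∧ 1 ≤ l / (C' * Real.log l ^ 2) ∧
      ∃ N : ℕ, (N : ℝ) ≤ Real.exp (Real.exp (C * (l / (C' * Real.log l ^ 2) *
        Real.log (l / (C' * Real.log l ^ 2)) ^ 2))) ∧
      ∀ n : ℕ, N ≤ n → HasGap (Fin n) (Real.exp (c₁ * (l / (C' * Real.log l ^ 2)))) := by
    filter_upwards [Real.tendsto_log_atTop.eventually_ge_atTop 1,
      hlim.eventually_ge_atTop 1, hlim.eventually H] with l h1 h2 h3
    exact ⟨h1, h2, h3⟩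
  have hpos : ∀ᶠ n : ℕ in atTop, (1 : ℝ) < Real.log n := by
    have := Real.tendsto_log_atTop.comp (tendsto_natCast_atTop_atTop (R := ℝ))
    exact this.eventually_gt_atTop 1
  filter_upwards [hll.eventually hev, hpos, eventually_gt_atTop 0] with n hn hn1 hn0
  obtain ⟨h1, h2, N, h3, h4⟩ := hn
  set l : ℝ := Real.log (Real.log n) with hl
  set L : ℝ := l / (C' * Real.log l ^ 2) with hL
  have hlog0 : 0 < Real.log l := by linarith
  have hl0 : 0 < l := by
    have : 0 < C' * Real.log l ^ 2 := by positivity
    have h5 : 0 < L := by linarith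
    rw [hL] at h5
    exact (div_pos_iff_of_pos_right this).1 h5
  have hLl : L ≤ l := by
    rw [hL]
    apply div_le_self hl0.le
    nlinarith
  have hlogL : Real.log L ≤ Real.log l := Real.log_le_log (by linarith) hLl
  have hlogL0 : 0 ≤ Real.log L := Real.log_nonneg h2
  have h5 : C * (L * Real.log L ^ 2) ≤ l := by
    calc C * (L * Real.log L ^ 2) ≤ C' * (L * Real.log L ^ 2) := by
          apply mul_le_mul_of_nonneg_right hCC'
          positivity
      _ ≤ C' * (L * Real.log l ^ 2) := by
          have : Real.log L ^ 2 ≤ Real.log l ^ 2 := by nlinarith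
          have hL0 : 0 ≤ L := by linarith
          gcongr
      _ = l := by
          rw [hL]
          field_simp
  have h6 : N ≤ n := by
    have h7 : (N : ℝ) ≤ n := by
      refine h3.trans ?_
      have h8 : Real.exp (C * (L * Real.log L ^ 2)) ≤ Real.log n := by
        calc _ ≤ Real.exp l := Real.exp_le_exp.2 h5
          _ = Real.log n := by rw [hl, Real.exp_log (by linarith)]
      calc _ ≤ Real.exp (Real.log n) := Real.exp_le_exp.2 h8
        _ = n := Real.exp_log (by exact_mod_cast hn0)
    exact_mod_cast h7
  have h9 := h4 n h6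
  refine h9.mono (le_of_eq ?_)
  congr 1
  rw [hL]
  field_simp

end Vale.Agent.P318.H308
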