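import Vale.Agent.P318.H308.Final
import Vale.Agent.P318.H937.Spec

/-! P318, Q2: from the code, the cut bound and the semimetric to the theorem. -/

open Finset Filter

set_option linter.unusedSectionVars false

namespace Vale.Agent.P318.H308

open Vale.Agent.P318.H867 Vale.Agent.P318.H937

section step

variable {X : Type} [AddCommGroup X] [Module (ZMod 2) X] [Fintype X] [DecidableEq X]

/-- the ±1 function of a set of code words -/
noncomputable def sgnOf {V : Submodule (ZMod 2) (X → ZMod 2)} (S : Finset V)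
    (v : X → ZMod 2) : ℝ :=
  open Classical in if ∃ h : v ∈ V, (⟨v, h⟩ : V) ∈ S then 1 else -1

theorem sgnOf_mem {V : Submodule (ZMod 2) (X → ZMod 2)} (S : Finset V) (v : V) :
    sgnOf S v.1 = if v ∈ S then 1 else -1 := by
  classical
  unfold sgnOf
  by_cases h : v ∈ S
  · rw [if_pos h, if_pos ⟨v.2, h⟩]
  · rw [if_neg h, if_neg]
    rintro ⟨h', h''⟩
    exact h h''

theorem step (hCUT : SpecCUT) (hSDP : SpecSDP) {κ s k D ℓ : ℕ}
    {V V1 : Submodule (ZMod 2) (X → ZMod 2)} {Γ : Type} {g : Γ → X → ZMod 2}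
    (h : GoodCode X κ s (2 ^ (2 * ℓ + 20)) k D ((1 / 2) ^ (6 * ℓ + 80)) V V1 Γ g)
    (h1 : 10 ≤ ℓ) (h2 : 2 ^ (2 * ℓ + 30) ≤ κ) (h3 : κ ≤ 2 ^ (4 * ℓ + 60))
    (h4 : 6 * ℓ + 100 ≤ s) (h5 : 100 * s ≤ κ) (h6 : 2 ^ (4 * ℓ + 70) ≤ k)
    {n : ℕ} (hn : 2 ^ D ≤ n) : HasGap (Fin n) (2 ^ ℓ / (32000 * s)) := by
  classical
  have hfin : Finite V := inferInstance
  let _ : Fintype V := Fintype.ofFinite V
  have hfinΓ : Finite Γ := h.fin
  let _ : Fintype Γ := Fintype.ofFinite Γ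
  have hneΓ : Nonempty Γ := h.ne
  have hs0 : (0 : ℝ) < s := by
    have : 0 < s := by omega
    exact_mod_cast this
  have hpow : (0 : ℝ) < (1 / 2) ^ s := by positivity
  have hXne : Nonempty X := ⟨0⟩
  have hκs : κ ≤ 2 ^ s := h3.trans (Nat.pow_le_pow_right (by norm_num) (by omega))
  have hkk : 4 * κ ≤ k := by
    refine le_trans ?_ h6
    calc 4 * κ ≤ 4 * 2 ^ (4 * ℓ + 60) := Nat.mul_le_mul_left 4 h3
      _ = 2 ^ (4 * ℓ + 62) := by rw [show 4 * ℓ + 62 = 4 * ℓ + 60 + 2 from rfl, pow_add]; ring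
      _ ≤ 2 ^ (4 * ℓ + 70) := Nat.pow_le_pow_right (by norm_num) (by omega)
  have hcardV : Fintype.card V ≤ n := by
    refine le_trans ?_ hn
    rw [Module.card_eq_pow_finrank (K := ZMod 2), ZMod.card]
    exact Nat.pow_le_pow_right (by norm_num) h.dim
  have hN2 : 2 ≤ Fintype.card V := by
    have hnt : Nontrivial V := by
      refine ⟨⟨⟨_, h.one⟩, 0, fun h0 => ?_⟩⟩
      have := congrArg (fun v : V => v.1 0) h0
      simp at this
    exact Fintype.one_lt_card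
  obtain ⟨dd, hdd1, hdd2, -, hdd4, hdd5⟩ := hSDP X κ s _ k D _ V V1 Γ g h (by omega) hκs h5 hkk
  let gV : Γ → V := fun γ => ⟨g γ, h.test γ⟩
  have hadd : ∀ v : V, v + v = 0 := by
    intro v
    have h7 : ((1 : ZMod 2) + 1) • v = 0 := by
      have : (1 : ZMod 2) + 1 = 0 := by decide
      rw [this, zero_smul]
    rwa [add_smul, one_smul] at h7
  have hsymm : ∀ u v : V, (∃ x : X, (v : X → ZMod 2) = tr x u) →
      ∃ x : X, (u : X → ZMod 2) = tr x v := by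
    rintro u v ⟨x, hx⟩
    refine ⟨-x, ?_⟩
    funext p
    have := congrFun hx (p + -x)
    simp only [tr] at this ⊢
    rw [this, neg_add_cancel_right]
  have hcuts : ∀ S : Finset V,
      (∀ u v : V, (∃ x : X, (v : X → ZMod 2) = tr x u) → u ∈ S → v ∈ S) →
      Fintype.card V ≤ 3 * S.card → 3 * S.card ≤ 2 * Fintype.card V →
      2 * ((2 : ℝ) ^ ℓ * (1 / 2) ^ s / 2) * Fintype.card V * Fintype.card Γ ≤
        ((univ : Finset (V × Γ)).filter fun p => ¬(p.1 ∈ S ↔ p.1 + gV p.2 ∈ S)).card := by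
    intro S hS hS1 hS2
    have hSiff : ∀ u v : V, (∃ x : X, (v : X → ZMod 2) = tr x u) → (u ∈ S ↔ v ∈ S) :=
      fun u v hx => ⟨hS u v hx, hS v u (hsymm u v hx)⟩
    have hcut := hCUT X κ s _ k D _ V V1 Γ g h ℓ h1 rfl h2 h6 le_rfl (sgnOf S) ?_ ?_ ?_
    · rw [Nat.card_eq_fintype_card (α := V), Nat.card_eq_fintype_card (α := Γ),
        Nat.card_eq_fintype_card, Fintype.card_subtype (fun w : V × Γ =>
          sgnOf S (w.1 + g w.2) ≠ sgnOf S w.1)] at hcut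
      have h8 : (univ.filter fun w : V × Γ => sgnOf S (w.1 + g w.2) ≠ sgnOf S w.1) =
          (univ : Finset (V × Γ)).filter fun p => ¬(p.1 ∈ S ↔ p.1 + gV p.2 ∈ S) := by
        ext p
        simp only [mem_filter, mem_univ, true_and]
        have h9 : ((p.1 : X → ZMod 2) + g p.2) = (p.1 + gV p.2 : V).1 := rfl
        rw [h9, sgnOf_mem, sgnOf_mem]
        by_cases ha : p.1 ∈ S <;> by_cases hb : p.1 + gV p.2 ∈ S <;> simp [ha, hb] <;> norm_num
      rw [h8] at hcut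
      refine le_trans (le_of_eq ?_) hcut.le
      ring
    · intro v hv
      unfold sgnOf
      split_ifs
      · exact Or.inl rfl
      · exact Or.inr rfl
    · intro v hv x
      have hv' : tr x v ∈ V := h.trans v hv x
      have h9 := sgnOf_mem S ⟨v, hv⟩
      have h10 := sgnOf_mem S ⟨tr x v, hv'⟩
      simp only at h9 h10
      rw [h9, h10]
      have h11 := hSiff ⟨v, hv⟩ ⟨tr x v, hv'⟩ ⟨x, rfl⟩
      by_cases h12 : (⟨v, hv⟩ : V) ∈ S
      · rw [if_pos h12, if_pos (h11.1 h12)]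
      · rw [if_neg h12, if_neg (fun h13 => h12 (h11.2 h13))]
    · rw [finsum_eq_sum_of_fintype, Nat.card_eq_fintype_card]
      have h9 : ∑ v : V, sgnOf S v.1 = 2 * (S.card : ℝ) - Fintype.card V := by
        simp_rw [sgnOf_mem]
        have h10 : ∀ v : V, (if v ∈ S then (1 : ℝ) else -1) = 2 * (if v ∈ S then 1 else 0) - 1 := by
          intro v
          split_ifs <;> norm_num
        simp_rw [h10, sum_sub_distrib, ← mul_sum]
        simp
      rw [h9, abs_le]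
      have h10 : (Fintype.card V : ℝ) ≤ 3 * S.card := by exact_mod_cast hS1
      have h11 : 3 * (S.card : ℝ) ≤ 2 * Fintype.card V := by exact_mod_cast hS2
      have h12 : (0 : ℝ) ≤ Fintype.card V := Nat.cast_nonneg _
      constructor <;> linarith
  have hcost : ∑ γ, ∑ u, dd u (u + gV γ) ≤
      1000 * s * (1 / 2) ^ s * Fintype.card V * Fintype.card Γ := by
    rw [finsum_eq_sum_of_fintype, Nat.card_eq_fintype_card, Nat.card_eq_fintype_card,
      Fintype.sum_prod_type, sum_comm] at hdd4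
    refine le_trans (le_of_eq ?_) (hdd4.trans (le_of_eq (by ring)))
    refine sum_congr rfl fun γ _ => sum_congr rfl fun v _ => ?_
    have h9 : ∀ u : V, (if (u : X → ZMod 2) = (v : X → ZMod 2) + g γ then dd v u else 0) =
        if u = v + gV γ then dd v u else 0 := by
      intro u
      have h10 : ((u : X → ZMod 2) = (v : X → ZMod 2) + g γ) ↔ u = v + gV γ := by
        rw [Subtype.ext_iff]
        rfl
      by_cases h11 : u = v + gV γ
      · rw [if_pos h11, if_pos (h10.2 h11)]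
      · rw [if_neg h11, if_neg (fun h12 => h11 (h10.1 h12))]
    simp_rw [h9]
    rw [sum_ite_eq' univ (v + gV γ)]
    simp
  have hfar : 8 * (univ.filter fun p : V × V => dd p.1 p.2 < 1).card ≤ Fintype.card V ^ 2 := by
    rw [Nat.card_eq_fintype_card, le_div_iff₀ (by norm_num)] at hdd5
    have h9 : ((8 * (univ.filter fun p : V × V => dd p.1 p.2 < 1).card : ℕ) : ℝ) ≤
        ((Fintype.card V ^ 2 : ℕ) : ℝ) := by
      push_cast
      linarith
    exact_mod_cast h9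
  have hθ : (0 : ℝ) < 2 ^ ℓ * (1 / 2) ^ s / 2 :=
    div_pos (mul_pos (pow_pos two_pos _) hpow) two_pos
  have hA : (0 : ℝ) < 1000 * s * (1 / 2) ^ s := mul_pos (mul_pos (by norm_num) hs0) hpow
  have key := hasGap_of_test (V := V) (Ω := Γ) hadd gV
    (fun u v : V => ∃ x : X, (v : X → ZMod 2) = tr x u) hsymm hθ hA hN2 hcuts hdd1 hdd2 hcost hfar
    hcardV
  refine key.mono (le_of_eq ?_)
  have hs1 : (s : ℝ) ≠ 0 := hs0.ne'
  have he1 : ((1 : ℝ) / 2) ^ s ≠ 0 := hpow.ne'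
  clear * - hs1 he1
  generalize ((1 : ℝ) / 2) ^ s = e at he1 ⊢
  generalize (s : ℝ) = t at hs1 ⊢
  field_simp
  norm_num

end step

theorem num_card {C ℓ D : ℕ} {L : ℝ} (hℓ : 1 ≤ ℓ) (hℓL : (ℓ : ℝ) ≤ L) (hL : 3 ≤ L)
    (hD : (D : ℝ) ≤ Real.exp ((C * ℓ * (Nat.log 2 ℓ) ^ 2 : ℕ) * Real.log 2)) :
    Real.exp (D * Real.log 2) ≤ Real.exp (Real.exp (3 * C * (L * Real.log L ^ 2))) := by
  have hlog2 : (0.69 : ℝ) < Real.log 2 := by linarith [Real.log_two_gt_d9]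
  have hlog2' : Real.log 2 < 0.7 := by linarith [Real.log_two_lt_d9]
  apply Real.exp_le_exp.2
  have h10 : (D : ℝ) * Real.log 2 ≤ D := by
    have : (0 : ℝ) ≤ D := Nat.cast_nonneg _
    nlinarith
  refine h10.trans (hD.trans (Real.exp_le_exp.2 ?_))
  push_cast
  have hlogL : 0 ≤ Real.log L := Real.log_nonneg (by linarith)
  have h11 : (Nat.log 2 ℓ : ℝ) ≤ Real.log L / Real.log 2 := by
    rw [le_div_iff₀ (by linarith)]
    have h12 : (2 : ℝ) ^ (Nat.log 2 ℓ) ≤ ℓ := by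
      exact_mod_cast Nat.pow_log_le_self 2 (by omega)
    have h13 := Real.log_le_log (by positivity) (h12.trans hℓL)
    rwa [Real.log_pow] at h13
  have h12 : (Nat.log 2 ℓ : ℝ) ^ 2 ≤ (Real.log L / Real.log 2) ^ 2 :=
    pow_le_pow_left₀ (Nat.cast_nonneg _) h11 2
  have h13 : (C : ℝ) * ℓ * (Nat.log 2 ℓ : ℝ) ^ 2 * Real.log 2 ≤
      C * L * (Real.log L / Real.log 2) ^ 2 * Real.log 2 := by
    have : (0 : ℝ) < Real.log 2 := by linarith
    gcongr
  refine h13.trans ?_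
  have h14 : (C : ℝ) * L * (Real.log L / Real.log 2) ^ 2 * Real.log 2 =
      C * (L * Real.log L ^ 2) * (1 / Real.log 2) := by
    have : Real.log 2 ≠ 0 := by linarith
    field_simp
  rw [h14]
  have h15 : 1 / Real.log 2 ≤ 3 := by
    rw [div_le_iff₀ (by linarith)]
    linarith
  have h16 : 0 ≤ (C : ℝ) * (L * Real.log L ^ 2) := by
    have : 0 ≤ L := by linarith
    positivity
  nlinarith

theorem num_gap {C ℓ s : ℕ} {L : ℝ} (hs : 0 < s) (hsC : s ≤ C * ℓ) (hℓL : (ℓ : ℝ) ≤ L)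
    (hLℓ : L - 1 ≤ ℓ) (hL : 3 ≤ L)
    (hA : 32000 * (C + 1) * L * Real.exp (1 / 2 * L) ≤ Real.exp (0.69 * (L - 1))) :
    Real.exp (1 / 2 * L) ≤ 2 ^ ℓ / (32000 * s) := by
  have hlog2 : (0.69 : ℝ) < Real.log 2 := by linarith [Real.log_two_gt_d9]
  have hs0 : (0 : ℝ) < s := by exact_mod_cast hs
  rw [le_div_iff₀ (by positivity)]
  have hsC : (s : ℝ) ≤ (C + 1) * L := by
    have h8 : (s : ℝ) ≤ C * ℓ := by exact_mod_cast hsC
    have h9 : (C : ℝ) * ℓ ≤ C * L := mul_le_mul_of_nonneg_left hℓL (Nat.cast_nonneg _)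
    nlinarith
  have h8 : Real.exp (0.69 * (L - 1)) ≤ 2 ^ ℓ := by
    have h9 : (2 : ℝ) ^ ℓ = Real.exp (Real.log 2 * ℓ) := by
      rw [Real.exp_mul, Real.exp_log (by norm_num), Real.rpow_natCast]
    rw [h9]
    apply Real.exp_le_exp.2
    nlinarith
  refine le_trans ?_ (hA.trans h8)
  have h10 : 0 < Real.exp (1 / 2 * L) := Real.exp_pos _
  calc Real.exp (1 / 2 * L) * (32000 * s) ≤ Real.exp (1 / 2 * L) * (32000 * ((C + 1) * L)) := by
        gcongr
    _ = _ := by ring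

theorem num_limA (C : ℕ) : ∀ᶠ L : ℝ in atTop,
    32000 * ((C : ℝ) + 1) * L * Real.exp (1 / 2 * L) ≤ Real.exp (0.69 * (L - 1)) := by
  have h1 : Tendsto (fun x : ℝ => Real.exp (0.19 * x) / x ^ (1 : ℝ)) atTop atTop :=
    tendsto_exp_mul_div_rpow_atTop 1 0.19 (by norm_num)
  filter_upwards [h1.eventually_ge_atTop (32000 * (C + 1) * Real.exp 0.69),
    eventually_gt_atTop (0 : ℝ)] with L h2 h3
  rw [Real.rpow_one, le_div_iff₀ h3] at h2
  have h4 : Real.exp (0.69 * (L - 1)) * Real.exp 0.69 =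
      Real.exp (0.19 * L) * Real.exp (1 / 2 * L) := by
    rw [← Real.exp_add, ← Real.exp_add]
    congr 1
    ring
  have h5 : 0 < Real.exp 0.69 := Real.exp_pos _
  have h6 : 0 < Real.exp (1 / 2 * L) := Real.exp_pos _
  have h7 := mul_le_mul_of_nonneg_right h2 h6.le
  rw [← h4] at h7
  refine le_of_mul_le_mul_right ?_ h5
  refine le_trans (le_of_eq ?_) h7
  ring

theorem num_limB (C : ℕ) : ∀ᶠ ℓ : ℕ in atTop, 100 * (C * ℓ) ≤ 2 ^ (2 * ℓ + 30) := by
  filter_upwards [eventually_ge_atTop C] with ℓ h1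
  have h2 : ℓ < 2 ^ ℓ := Nat.lt_two_pow_self
  have h3 : C * ℓ ≤ 2 ^ ℓ * 2 ^ ℓ := Nat.mul_le_mul (h1.trans h2.le) h2.le
  have h4 : 2 ^ (2 * ℓ + 30) = 2 ^ 30 * (2 ^ ℓ * 2 ^ ℓ) := by
    rw [← pow_add, ← pow_add]
    congr 1
    ring
  rw [h4]
  refine (Nat.mul_le_mul_left 100 h3).trans (Nat.mul_le_mul_right _ (by norm_num))

/-- **The transfer** in terms of `HasGap`. -/
theorem main_hasGap (hCODE : SpecCODE) (hCUT : SpecCUT) (hSDP : SpecSDP) :
    ∃ c : ℝ, 0 < c ∧ ∀ᶠ n : ℕ in atTop, HasGap (Fin n)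
      (Real.exp (c * (Real.log (Real.log n) / Real.log (Real.log (Real.log n)) ^ 2))) := by
  obtain ⟨C, ℓ0, hC⟩ := hCODE
  refine final_asymptotics (C := 3 * C) (c₁ := 1 / 2) (by norm_num) ?_
  have hfl : Tendsto (fun L : ℝ => ⌊L⌋₊) atTop atTop := tendsto_nat_floor_atTop
  filter_upwards [num_limA C, hfl.eventually (num_limB C),
    hfl.eventually_ge_atTop (max 10 ℓ0), eventually_ge_atTop (3 : ℝ)] with L hA1 hB1 hℓ hL3
  have hℓL : ((⌊L⌋₊ : ℕ) : ℝ) ≤ L := Nat.floor_le (by linarith)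
  have hLℓ : L - 1 ≤ (⌊L⌋₊ : ℕ) := by
    have := Nat.lt_floor_add_one L
    linarith
  generalize ⌊L⌋₊ = ℓ at hB1 hℓ hℓL hLℓ
  have hℓ10 : 10 ≤ ℓ := (le_max_left _ _).trans hℓ
  obtain ⟨κ, s, k, D, h1, h2, h3, h4, h5, h6, X, _, _, _, _, V, V1, Γ, g, hgood⟩ :=
    hC ℓ ((le_max_right _ _).trans hℓ)
  have h7 : 100 * s ≤ κ := (Nat.mul_le_mul_left 100 h4).trans (hB1.trans h1)
  have h8 : ((2 ^ D : ℕ) : ℝ) = Real.exp (D * Real.log 2) := by
    rw [mul_comm, Real.exp_mul, Real.exp_log (by norm_num), Real.rpow_natCast]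
    norm_num
  have h9 : (D : ℝ) ≤ Real.exp ((C * ℓ * (Nat.log 2 ℓ) ^ 2 : ℕ) * Real.log 2) := by
    rw [mul_comm, Real.exp_mul, Real.exp_log (by norm_num), Real.rpow_natCast]
    exact_mod_cast h6
  refine ⟨2 ^ D, ?_, fun n hn => ?_⟩
  · rw [h8]
    exact num_card (by omega) hℓL hL3 h9
  · exact (step hCUT hSDP hgood hℓ10 h1 h2 h3 h7 h5 hn).mono
      (num_gap (by omega) h4 hℓL hLℓ hL3 hA1)

/-- section 15, 16 -/
theorem spec_transfer : SpecTRANSFER := by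
  intro hCODE hCUT hSDP
  obtain ⟨c, hc, h⟩ := main_hasGap hCODE hCUT hSDP
  obtain ⟨n₀, hn₀⟩ := eventually_atTop.1 h
  refine ⟨c, hc, n₀, fun n hn => ?_⟩
  obtain ⟨cap, h1, h2, h3, h4, h5⟩ := hn₀ n hn
  refine ⟨cap, ⟨h2, h1, h3⟩, h4, ?_⟩
  rwa [mul_div_assoc]

/-- the form with the gap function `g(n)` -/
theorem main_gap (hCODE : SpecCODE) (hCUT : SpecCUT) (hSDP : SpecSDP) :
    ∃ c : ℝ, 0 < c ∧ ∃ n₀ : ℕ, ∀ n ≥ n₀,
      Real.exp (c * Real.log (Real.log n) / (Real.log (Real.log (Real.log n))) ^ 2) ≤ gap n := by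
  obtain ⟨c, hc, h⟩ := main_hasGap hCODE hCUT hSDP
  obtain ⟨n₀, hn₀⟩ := eventually_atTop.1 h
  refine ⟨c, hc, n₀, fun n hn => ?_⟩
  have := le_gap (hn₀ n hn)
  rwa [mul_div_assoc]

end Vale.Agent.P318.H308
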