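import Vale.Agent.P318.H794.Cart

/-! P318, Q2: the gap function `g(n)`, pruning of unbalanced sparse cuts, blow-ups. -/

open Finset

set_option linter.unusedSectionVars false

namespace Vale.Agent.P318.H308

open Vale.Agent.P318.H867 Vale.Agent.P318.H794

/-- The integrality gap `g(n)`: the supremum of `Φ(c) / GL(c)` over the nonnegative symmetric
capacities with zero diagonal on `n` vertices with `GL(c) > 0`. -/
noncomputable def gap (n : ℕ) : ℝ :=
  sSup {r : ℝ | ∃ c : Fin n → Fin n → ℝ, (∀ i j, 0 ≤ c i j) ∧ (∀ i j, c i j = c j i) ∧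
    (∀ i, c i i = 0) ∧ 0 < glValue c ∧ r = phi c / glValue c}

/-- there are capacities on `V` whose gap is at least `γ` -/
def HasGap (V : Type*) [Fintype V] [DecidableEq V] (γ : ℝ) : Prop :=
  ∃ c : V → V → ℝ, (∀ i j, 0 ≤ c i j) ∧ (∀ i j, c i j = c j i) ∧
    (∀ i, c i i = 0) ∧ 0 < glValue c ∧ γ * glValue c ≤ phi c

/-- `GL(c) ≥ (2 / N) Φ(c)` -/
theorem phi_le_card_mul_gl {V : Type*} [Fintype V] [DecidableEq V] [Nontrivial V]
    {c : V → V → ℝ} (hc : ∀ i j, 0 ≤ c i j) (hs : ∀ i j, c i j = c j i) :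
    2 * phi c ≤ Fintype.card V * glValue c := by
  have hN : (0 : ℝ) < Fintype.card V := by exact_mod_cast Fintype.card_pos
  rw [← div_le_iff₀' hN]
  refine le_gl fun d hd h1 => ?_
  obtain ⟨⟨x, hx⟩, htri⟩ := hd
  have hd0 : ∀ i j, 0 ≤ d i j := fun i j => by rw [hx]; positivity
  have hdd : ∀ i, d i i = 0 := fun i => by rw [hx]; simp
  have hds : ∀ i j, d i j = d j i := fun i j => by rw [hx, hx, norm_sub_rev]
  rw [div_le_iff₀' hN]
  have hphi := phi_nonneg hc
  have key : ∀ i, phi c * (2 * ∑ y, d i y) ≤ ∑ y, ∑ z, c y z * d y z := by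
    intro i
    have h2 := coarea hc hs (fun y => d i y)
    have h3 : ∑ y, ∑ z, c y z * |d i y - d i z| ≤ ∑ y, ∑ z, c y z * d y z := by
      refine sum_le_sum fun y _ => sum_le_sum fun z _ => mul_le_mul_of_nonneg_left ?_ (hc y z)
      rw [abs_le]
      have h4 := htri i z y
      have h5 := htri i y z
      rw [hds z y] at h4
      constructor <;> linarith
    have h6 : 2 * ∑ y, d i y ≤ ∑ y, ∑ z, |d i y - d i z| := by
      have h7 : ∀ y, d i y + (if y = i then ∑ z, d i z else 0) ≤ ∑ z, |d i y - d i z| := by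
        intro y
        by_cases hy : y = i
        · subst hy
          simp only [hdd, if_true, zero_add, zero_sub, abs_neg]
          exact sum_le_sum fun z _ => le_abs_self _
        · rw [if_neg hy, add_zero]
          have h8 : |d i y - d i i| ≤ ∑ z, |d i y - d i z| :=
            single_le_sum (f := fun z => |d i y - d i z|) (fun z _ => abs_nonneg _) (mem_univ i)
          rw [hdd, sub_zero, abs_of_nonneg (hd0 i y)] at h8
          exact h8
      have h9 := sum_le_sum fun y (_ : y ∈ univ) => h7 y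
      rw [sum_add_distrib, sum_ite_eq' univ i] at h9
      simp only [mem_univ, if_true] at h9
      linarith
    calc phi c * (2 * ∑ y, d i y) ≤ phi c * ∑ y, ∑ z, |d i y - d i z| :=
          mul_le_mul_of_nonneg_left h6 hphi
      _ ≤ _ := h2.trans h3
  have h10 := sum_le_sum fun i (_ : i ∈ univ) => key i
  rw [← mul_sum, ← mul_sum, sum_const, card_univ, nsmul_eq_mul] at h10
  have h11 : ∑ i, ∑ y, d i y = 2 := by linarith
  rw [h11] at h10
  linarith

theorem gl_pos {V : Type*} [Fintype V] [DecidableEq V] [Nontrivial V]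
    {c : V → V → ℝ} (hc : ∀ i j, 0 ≤ c i j) (hs : ∀ i j, c i j = c j i) (h : 0 < phi c) :
    0 < glValue c := by
  have h1 := phi_le_card_mul_gl hc hs
  have hN : (0 : ℝ) < Fintype.card V := by exact_mod_cast Fintype.card_pos
  by_contra hcon
  have : Fintype.card V * glValue c ≤ 0 := mul_nonpos_of_nonneg_of_nonpos hN.le (not_lt.1 hcon)
  linarith

theorem glValue_subsingleton {V : Type*} [Fintype V] [DecidableEq V] [Subsingleton V]
    (c : V → V → ℝ) : glValue c = 0 := by
  unfold glValue
  have : {r : ℝ | ∃ d : V → V → ℝ, IsNegTypeSemimetric d ∧ (∑ i, ∑ j, d i j) / 2 = 1 ∧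
      r = (∑ i, ∑ j, c i j * d i j) / 2} = ∅ := by
    ext r
    simp only [Set.mem_ofPred_eq, Set.mem_empty_iff_false, iff_false]
    rintro ⟨d, ⟨⟨x, hx⟩, -⟩, h1, -⟩
    have : ∑ i, ∑ j, d i j = 0 := by
      refine sum_eq_zero fun i _ => sum_eq_zero fun j _ => ?_
      rw [hx, Subsingleton.elim i j]
      simp
    rw [this] at h1
    norm_num at h1
  rw [this, Real.sInf_empty]

theorem HasGap.nontrivial {V : Type*} [Fintype V] [DecidableEq V] {γ : ℝ} (h : HasGap V γ) :
    Nontrivial V := by
  by_contra hcon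
  rw [not_nontrivial_iff_subsingleton] at hcon
  obtain ⟨c, -, -, -, hpos, -⟩ := h
  rw [glValue_subsingleton c] at hpos
  exact lt_irrefl _ hpos

theorem gap_bddAbove (n : ℕ) : BddAbove {r : ℝ | ∃ c : Fin n → Fin n → ℝ,
    (∀ i j, 0 ≤ c i j) ∧ (∀ i j, c i j = c j i) ∧
    (∀ i, c i i = 0) ∧ 0 < glValue c ∧ r = phi c / glValue c} := by
  refine ⟨n, ?_⟩
  rintro r ⟨c, hc, hs, h0, hpos, rfl⟩
  have hnt : Nontrivial (Fin n) := HasGap.nontrivial (γ := 0) ⟨c, hc, hs, h0, hpos, by
    rw [zero_mul]; exact phi_nonneg hc⟩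
  rw [div_le_iff₀ hpos]
  have h1 := phi_le_card_mul_gl hc hs
  rw [Fintype.card_fin] at h1
  have h2 := phi_nonneg hc
  linarith

theorem le_gap {n : ℕ} {γ : ℝ} (h : HasGap (Fin n) γ) : γ ≤ gap n := by
  obtain ⟨c, hc, hs, h0, hpos, hγ⟩ := h
  have h1 : γ ≤ phi c / glValue c := by rwa [le_div_iff₀ hpos]
  exact h1.trans (le_csSup (gap_bddAbove n) ⟨c, hc, hs, h0, hpos, rfl⟩)

theorem HasGap.mono {V : Type*} [Fintype V] [DecidableEq V] {γ γ' : ℝ} (h : HasGap V γ)
    (hle : γ' ≤ γ) : HasGap V γ' := by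
  obtain ⟨c, hc, hs, h0, hpos, hγ⟩ := h
  exact ⟨c, hc, hs, h0, hpos, (mul_le_mul_of_nonneg_right hle hpos.le).trans hγ⟩

/-! ### Blow-ups -/

section blow

variable {V W : Type*} [Fintype V] [DecidableEq V] [Fintype W] [DecidableEq W]

/-- size of a fibre -/
def fib (f : W → V) (i : V) : ℕ := (univ.filter fun a => f a = i).card

theorem sum_fib (f : W → V) (g : V → ℝ) : ∑ a, g (f a) = ∑ i, (fib f i : ℝ) * g i := by
  rw [← sum_fiberwise univ f (fun a => g (f a))]
  refine sum_congr rfl fun i _ => ?_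
  rw [sum_congr rfl (fun a ha => by rw [(mem_filter.1 ha).2] : ∀ a ∈ univ.filter fun a => f a = i,
    g (f a) = g i), sum_const, nsmul_eq_mul, fib]

theorem sum_fib2 (f : W → V) (g : V → V → ℝ) :
    ∑ a, ∑ b, g (f a) (f b) = ∑ i, ∑ j, (fib f i : ℝ) * (fib f j : ℝ) * g i j := by
  have h1 : ∀ a, ∑ b, g (f a) (f b) = ∑ j, (fib f j : ℝ) * g (f a) j := fun a =>
    sum_fib f (fun j => g (f a) j)
  simp_rw [h1]
  rw [sum_fib f (fun i => ∑ j, (fib f j : ℝ) * g i j)]
  refine sum_congr rfl fun i _ => ?_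
  rw [mul_sum]
  exact sum_congr rfl fun j _ => by ring

/-- the capacities of the blow-up -/
noncomputable def blowCap (f : W → V) (c : V → V → ℝ) (M : ℝ) (a b : W) : ℝ :=
  if f a = f b then (if a = b then 0 else M)
  else c (f a) (f b) / ((fib f (f a) : ℝ) * (fib f (f b) : ℝ))

theorem blow {f : W → V} {q : ℕ} (hq : 0 < q) (h1 : ∀ i, q ≤ fib f i) (h2 : ∀ i, fib f i ≤ 2 * q)
    {γ : ℝ} (hγ : 0 < γ) (h : HasGap V γ) : HasGap W (γ / 4) := by
  have hnt := h.nontrivial
  obtain ⟨c, hc, hs, h0, hpos, hgap⟩ := h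
  have hq0 : (0 : ℝ) < q := by exact_mod_cast hq
  have hf : Function.Surjective f := by
    intro i
    have h3 : 0 < fib f i := lt_of_lt_of_le hq (h1 i)
    obtain ⟨a, ha⟩ := card_pos.1 h3
    exact ⟨a, (mem_filter.1 ha).2⟩
  have hntW : Nontrivial W := hf.nontrivial
  have hfp : ∀ i, (0 : ℝ) < fib f i := fun i => by exact_mod_cast lt_of_lt_of_le hq (h1 i)
  have hphi : 0 < phi c := lt_of_lt_of_le (mul_pos hγ hpos) hgap
  set r : ℝ := phi c / (4 * q ^ 2) with hr
  have hr0 : 0 < r := by positivity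
  set M : ℝ := r * (Fintype.card W : ℝ) ^ 2 with hM
  have hM0 : 0 ≤ M := by positivity
  set c' := blowCap f c M with hc'
  have hc'0 : ∀ a b, 0 ≤ c' a b := by
    intro a b
    rw [hc', blowCap]
    split_ifs
    · exact le_rfl
    · exact hM0
    · exact div_nonneg (hc _ _) (by positivity)
  have hc's : ∀ a b, c' a b = c' b a := by
    intro a b
    rw [hc', blowCap, blowCap]
    by_cases h3 : f a = f b
    · rw [if_pos h3, if_pos h3.symm]
      by_cases h4 : a = b
      · rw [if_pos h4, if_pos h4.symm]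
      · rw [if_neg h4, if_neg (Ne.symm h4)]
    · rw [if_neg h3, if_neg (Ne.symm h3), hs, mul_comm]
  have hc'd : ∀ a, c' a a = 0 := fun a => by rw [hc', blowCap]; simp
  -- lower bound for the cuts
  have hcut : r ≤ phi c' := by
    refine le_phi fun S hS hSc => ?_
    by_cases hsat : ∀ a b, f a = f b → a ∈ S → b ∈ S
    · -- saturated sets
      set T : Finset V := S.image f with hT
      have hST : S = univ.filter fun a => f a ∈ T := by
        ext a
        simp only [mem_filter, mem_univ, true_and, hT, mem_image]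
        constructor
        · intro ha; exact ⟨a, ha, rfl⟩
        · rintro ⟨b, hb, hba⟩; exact hsat b a hba hb
      have hScT : Sᶜ = univ.filter fun a => f a ∈ Tᶜ := by
        rw [hST]; ext a; simp
      have hcard : ∀ (T : Finset V), (((univ : Finset W).filter fun a => f a ∈ T).card : ℝ) =
          ∑ i ∈ T, (fib f i : ℝ) := by
        intro T
        have h3 := sum_fib f (fun i => if i ∈ T then (1 : ℝ) else 0)
        rw [sum_boole] at h3
        rw [h3]
        simp [sum_ite_mem]
      have hub : ∀ (T : Finset V), (((univ : Finset W).filter fun a => f a ∈ T).card : ℝ) ≤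
          2 * q * T.card := by
        intro T
        rw [hcard]
        calc ∑ i ∈ T, (fib f i : ℝ) ≤ ∑ i ∈ T, (2 * q : ℝ) :=
              sum_le_sum fun i _ => by exact_mod_cast h2 i
          _ = 2 * q * T.card := by rw [sum_const, nsmul_eq_mul]; ring
      have hcc : cutCap c' S = cutCap c T := by
        have h4 : cutCap c' S = ∑ a, ∑ b, (if f a ∈ T ∧ f b ∈ Tᶜ then
            c (f a) (f b) / ((fib f (f a) : ℝ) * (fib f (f b) : ℝ)) else 0) := by
          rw [cutCap, hScT, hST, sum_filter]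
          refine sum_congr rfl fun a _ => ?_
          rw [sum_filter]
          by_cases ha : f a ∈ T
          · rw [if_pos ha]
            refine sum_congr rfl fun b _ => ?_
            by_cases hb : f b ∈ Tᶜ
            · rw [if_pos hb, if_pos ⟨ha, hb⟩, hc', blowCap, if_neg]
              intro h5
              rw [h5] at ha
              exact (mem_compl.1 hb) ha
            · rw [if_neg hb, if_neg (fun h => hb h.2)]
          · rw [if_neg ha]
            symm
            exact sum_eq_zero fun b _ => if_neg fun h => ha h.1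
        rw [h4, sum_fib2 f (fun i j => if i ∈ T ∧ j ∈ Tᶜ then
            c i j / ((fib f i : ℝ) * (fib f j : ℝ)) else 0), cutCap]
        rw [← sum_filter_add_sum_filter_not univ (· ∈ T)]
        have h6 : ∑ i with i ∉ T, ∑ j, (fib f i : ℝ) * (fib f j : ℝ) *
            (if i ∈ T ∧ j ∈ Tᶜ then c i j / ((fib f i : ℝ) * (fib f j : ℝ)) else 0) = 0 := by
          refine sum_eq_zero fun i hi => sum_eq_zero fun j _ => ?_
          rw [if_neg (fun h => (mem_filter.1 hi).2 h.1), mul_zero]
        rw [h6, add_zero]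
        simp only [filter_mem_eq_inter, univ_inter]
        refine sum_congr rfl fun i hi => ?_
        rw [← sum_filter_add_sum_filter_not univ (· ∈ Tᶜ)]
        have h7 : ∑ j with j ∉ Tᶜ, (fib f i : ℝ) * (fib f j : ℝ) *
            (if i ∈ T ∧ j ∈ Tᶜ then c i j / ((fib f i : ℝ) * (fib f j : ℝ)) else 0) = 0 := by
          refine sum_eq_zero fun j hj => ?_
          rw [if_neg (fun h => (mem_filter.1 hj).2 h.2), mul_zero]
        rw [h7, add_zero]
        simp only [filter_mem_eq_inter, univ_inter]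
        refine sum_congr rfl fun j hj => ?_
        rw [if_pos ⟨hi, hj⟩]
        have := hfp i
        have := hfp j
        field_simp
      rw [hcc]
      have h8 := phi_mul_le hc T
      have h9 : (S.card : ℝ) ≤ 2 * q * T.card := by
        conv_lhs => rw [hST]
        exact hub T
      have h10 : (Sᶜ.card : ℝ) ≤ 2 * q * Tᶜ.card := by
        conv_lhs => rw [hScT]
        exact hub Tᶜ
      have h9' : (S.card : ℝ) * (Sᶜ.card : ℝ) ≤ (2 * q * T.card) * (2 * q * Tᶜ.card) :=
        mul_le_mul h9 h10 (Nat.cast_nonneg _)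
          (mul_nonneg (mul_nonneg zero_le_two hq0.le) (Nat.cast_nonneg _))
      refine le_trans (mul_le_mul_of_nonneg_left h9' hr0.le) (le_trans (le_of_eq ?_) h8)
      have hq0' : (q : ℝ) ≠ 0 := hq0.ne'
      rw [hr]
      clear_value T
      generalize (T.card : ℝ) = t1
      generalize (Tᶜ.card : ℝ) = t2
      generalize phi c = ph
      field_simp
      ring
    · push Not at hsat
      obtain ⟨a, b, hab, ha, hb⟩ := hsat
      have h3 : c' a b ≤ cutCap c' S := by
        rw [cutCap]
        calc c' a b ≤ ∑ j ∈ Sᶜ, c' a j :=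
              single_le_sum (f := fun j => c' a j) (fun j _ => hc'0 a j) (mem_compl.2 hb)
          _ ≤ _ := single_le_sum (f := fun i => ∑ j ∈ Sᶜ, c' i j)
              (fun i _ => sum_nonneg fun j _ => hc'0 i j) ha
      have h4 : c' a b = M := by
        rw [hc', blowCap, if_pos hab, if_neg]
        rintro rfl
        exact hb ha
      rw [h4] at h3
      refine le_trans ?_ h3
      rw [hM]
      have h5 : (S.card : ℝ) ≤ Fintype.card W := by exact_mod_cast card_le_univ S
      have h6 : (Sᶜ.card : ℝ) ≤ Fintype.card W := by exact_mod_cast card_le_univ Sᶜ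
      calc r * ((S.card : ℝ) * (Sᶜ.card : ℝ)) ≤ r * ((Fintype.card W : ℝ) * Fintype.card W) := by
            gcongr
        _ = _ := by ring
  have hphi' : 0 < phi c' := lt_of_lt_of_le hr0 hcut
  have hgl' : 0 < glValue c' := gl_pos hc'0 hc's hphi'
  -- upper bound for the relaxation
  have hglub : q ^ 2 * glValue c' ≤ glValue c := by
    refine le_gl fun d hd h3 => ?_
    obtain ⟨⟨x, hx⟩, htri⟩ := hd
    have hd0 : ∀ i j, 0 ≤ d i j := fun i j => by rw [hx]; positivity
    have hdd : ∀ i, d i i = 0 := fun i => by rw [hx]; simp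
    have hneg : IsNegTypeSemimetric (fun a b => d (f a) (f b)) :=
      negType_of (fun a => x (f a)) (fun a b => hx _ _) (fun a b e => htri _ _ _)
    have h4 := gl_mul_le hc'0 hneg
    have h5 : q ^ 2 * ∑ i, ∑ j, d i j ≤ ∑ a, ∑ b, d (f a) (f b) := by
      rw [sum_fib2 f d, mul_sum]
      refine sum_le_sum fun i _ => ?_
      rw [mul_sum]
      refine sum_le_sum fun j _ => mul_le_mul_of_nonneg_right ?_ (hd0 i j)
      have h6 : (q : ℝ) ≤ fib f i := by exact_mod_cast h1 i
      have h7 : (q : ℝ) ≤ fib f j := by exact_mod_cast h1 j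
      nlinarith
    have h8 : ∑ a, ∑ b, c' a b * d (f a) (f b) = ∑ i, ∑ j, c i j * d i j := by
      have h9 : ∀ a b, c' a b * d (f a) (f b) =
          (fun i j => c i j / ((fib f i : ℝ) * (fib f j : ℝ)) * d i j) (f a) (f b) := by
        intro a b
        simp only [hc', blowCap]
        by_cases h10 : f a = f b
        · rw [h10, hdd, mul_zero, mul_zero]
        · rw [if_neg h10]
      simp_rw [h9]
      rw [sum_fib2 f (fun i j => c i j / ((fib f i : ℝ) * (fib f j : ℝ)) * d i j)]
      refine sum_congr rfl fun i _ => sum_congr rfl fun j _ => ?_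
      have := hfp i
      have := hfp j
      field_simp
    rw [h8] at h4
    have h11 : glValue c' * (q ^ 2 * ∑ i, ∑ j, d i j) ≤ ∑ i, ∑ j, c i j * d i j :=
      (mul_le_mul_of_nonneg_left h5 hgl'.le).trans h4
    have h12 : ∑ i, ∑ j, d i j = 2 := by linarith
    rw [h12] at h11
    linarith
  refine ⟨c', hc'0, hc's, hc'd, hgl', ?_⟩
  refine le_trans ?_ hcut
  rw [hr, le_div_iff₀ (by positivity)]
  calc γ / 4 * glValue c' * (4 * q ^ 2) = γ * (q ^ 2 * glValue c') := by ring
    _ ≤ γ * glValue c := mul_le_mul_of_nonneg_left hglub hγ.le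
    _ ≤ phi c := hgap

end blow

/-- **Padding.** -/
theorem padding {V : Type*} [Fintype V] [DecidableEq V] {γ : ℝ} (hγ : 0 < γ) (h : HasGap V γ)
    {n : ℕ} (hn : Fintype.card V ≤ n) : HasGap (Fin n) (γ / 4) := by
  have hnt := h.nontrivial
  set m := Fintype.card V with hm
  have hm0 : 0 < m := Fintype.card_pos
  let e : V ≃ Fin m := Fintype.equivFin V
  let f : Fin n → V := fun a => e.symm ⟨a.1 % m, Nat.mod_lt _ hm0⟩
  have hfa : ∀ (a : Fin n) (i : V), f a = i ↔ a.1 % m = (e i).1 := by
    intro a i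
    simp only [f]
    rw [Equiv.symm_apply_eq, Fin.ext_iff]
  have hq : 0 < n / m := Nat.div_pos hn hm0
  refine blow (f := f) (q := n / m) hq (fun i => ?_) (fun i => ?_) hγ h
  · -- `k ↦ e i + m k` is injective on `k < n / m`
    have h1 : (univ : Finset (Fin (n / m))).card ≤ fib f i := by
      unfold fib
      have hlt : ∀ k : Fin (n / m), (e i).1 + m * k.1 < n := by
        intro k
        have h2 : (e i).1 < m := (e i).2
        have h3 : m * (k.1 + 1) ≤ m * (n / m) := Nat.mul_le_mul_left m k.2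
        have h4 : m * (n / m) ≤ n := Nat.mul_div_le n m
        nlinarith
      refine card_le_card_of_injOn (fun k => (⟨(e i).1 + m * k.1, hlt k⟩ : Fin n)) ?_ ?_
      · intro k _
        simp only [coe_filter, mem_univ, true_and, Set.mem_ofPred_eq]
        rw [hfa]
        simp [Nat.add_mul_mod_self_left, Nat.mod_eq_of_lt (e i).2]
      · intro k _ l _ hkl
        simp only [Fin.mk.injEq] at hkl
        have h5 : m * k.1 = m * l.1 := by omega
        exact Fin.ext (Nat.eq_of_mul_eq_mul_left hm0 h5)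
    simpa using h1
  · have h1 : fib f i ≤ (univ : Finset (Fin (n / m + 1))).card := by
      unfold fib
      refine card_le_card_of_injOn (fun a => (⟨a.1 / m,
        Nat.lt_succ_of_le (Nat.div_le_div_right a.2.le)⟩ : Fin (n / m + 1))) ?_ ?_
      · intro a _
        simp
      · intro a ha b hb hab
        simp only [coe_filter, mem_univ, true_and, Set.mem_ofPred_eq] at ha hb
        rw [hfa] at ha hb
        simp only [Fin.mk.injEq] at hab
        apply Fin.ext
        rw [← Nat.div_add_mod a.1 m, ← Nat.div_add_mod b.1 m, hab, ha, hb]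
    simp only [card_univ, Fintype.card_fin] at h1
    omega

/-! ### Pruning -/

theorem cutCap_compl {V : Type*} [Fintype V] [DecidableEq V] {c : V → V → ℝ}
    (hs : ∀ i j, c i j = c j i) (S : Finset V) : cutCap c Sᶜ = cutCap c S := by
  rw [cutCap, cutCap, compl_compl, sum_comm]
  exact sum_congr rfl fun i _ => sum_congr rfl fun j _ => hs _ _

/-- **From balanced cuts to all cuts.** If all cuts of `c` with parts between a third and two
thirds of the `N` points have capacity at least `θ N`, and `d` is a negative type semimetric with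
`∑ c d ≤ A N` and at most `N² / 8` pairs at distance `< 1`, then some induced subinstance has gap
at least `θ / (4 A)`. -/
theorem prune {V : Type*} [Fintype V] [DecidableEq V] {c d : V → V → ℝ} {θ A : ℝ}
    (hc : ∀ i j, 0 ≤ c i j) (hs : ∀ i j, c i j = c j i) (h0 : ∀ i, c i i = 0)
    (hN : 2 ≤ Fintype.card V) (hθ : 0 < θ) (hA : 0 < A)
    (hcut : ∀ S : Finset V, Fintype.card V ≤ 3 * S.card → 3 * S.card ≤ 2 * Fintype.card V →
      θ * Fintype.card V ≤ cutCap c S)
    (hd : IsNegTypeSemimetric d) (hcost : ∑ i, ∑ j, c i j * d i j ≤ A * Fintype.card V)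
    (hfar : 8 * (univ.filter fun p : V × V => d p.1 p.2 < 1).card ≤ Fintype.card V ^ 2) :
    ∃ U : Finset V, HasGap U (θ / (4 * A)) := by
  classical
  set N := Fintype.card V with hNdef
  have hN0 : (0 : ℝ) < N := by
    have : 0 < N := by omega
    exact_mod_cast this
  -- a maximal sparse set with less than a third of the points
  set F : Finset (Finset V) := univ.filter fun B => 3 * B.card < N ∧ cutCap c B ≤ θ * B.card
    with hF
  have hFne : F.Nonempty := by
    refine ⟨∅, ?_⟩
    rw [hF, mem_filter, card_empty]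
    refine ⟨mem_univ _, by omega, ?_⟩
    simp [cutCap]
  obtain ⟨B, hBF, hmax⟩ := exists_max_image F (fun B => B.card) hFne
  rw [hF, mem_filter] at hBF
  obtain ⟨-, hB1, hB2⟩ := hBF
  set U : Finset V := Bᶜ with hU
  have hUc : B.card + U.card = N := by
    rw [hU, card_add_card_compl]
  have hU3 : 2 * N < 3 * U.card := by omega
  have hUcard : Fintype.card U = U.card := Fintype.card_coe U
  have hntU : Nontrivial U := by
    rw [← Fintype.one_lt_card_iff_nontrivial, hUcard]
    omega
  set cU : U → U → ℝ := fun i j => c i.1 j.1 with hcU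
  have hcU0 : ∀ i j, 0 ≤ cU i j := fun i j => hc _ _
  have hcUs : ∀ i j, cU i j = cU j i := fun i j => hs _ _
  -- the expansion of the small sets
  have hexp : ∀ S : Finset U, S.Nonempty → S.card ≤ Sᶜ.card → θ * S.card ≤ cutCap cU S := by
    intro S hS hS2
    set S' : Finset V := S.map (Function.Embedding.subtype _) with hS'
    have hS'c : S'.card = S.card := card_map _
    have hS'pos : 0 < S.card := hS.card_pos
    have hsub : S' ⊆ U := by
      intro x hx
      rw [hS', mem_map] at hx
      obtain ⟨y, -, rfl⟩ := hx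
      exact y.2
    have hdisj : Disjoint B S' := by
      rw [disjoint_left]
      intro x hx hx'
      exact (mem_compl.1 (hsub hx')) hx
    have hcardU : (B ∪ S').card = B.card + S.card := by rw [card_union_of_disjoint hdisj, hS'c]
    have hScard : S.card + Sᶜ.card = U.card := by rw [card_add_card_compl, hUcard]
    have hmapc : (B ∪ S')ᶜ = Sᶜ.map (Function.Embedding.subtype _) := by
      ext x
      simp only [mem_compl, mem_union, not_or, mem_map, Function.Embedding.subtype_apply, hS']
      constructor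
      · rintro ⟨hx1, hx2⟩
        have hxU : x ∈ U := by rw [hU]; exact mem_compl.2 hx1
        exact ⟨⟨x, hxU⟩, fun h => hx2 ⟨_, h, rfl⟩, rfl⟩
      · rintro ⟨y, hy, rfl⟩
        refine ⟨fun h => ?_, ?_⟩
        · exact (mem_compl.1 (hU ▸ y.2 : y.1 ∈ Bᶜ)) h
        · rintro ⟨z, hz, hzy⟩
          rw [Subtype.ext hzy] at hz
          exact hy hz
    have h1 : cutCap c (B ∪ S') ≤ cutCap c B + cutCap cU S := by
      have h2 : cutCap c (B ∪ S') = ∑ i ∈ B, ∑ j ∈ (B ∪ S')ᶜ, c i j +
          ∑ i ∈ S', ∑ j ∈ (B ∪ S')ᶜ, c i j := by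
        rw [cutCap, sum_union hdisj]
      have h3 : ∑ i ∈ B, ∑ j ∈ (B ∪ S')ᶜ, c i j ≤ cutCap c B := by
        rw [cutCap]
        refine sum_le_sum fun i _ => sum_le_sum_of_subset_of_nonneg ?_ fun j _ _ => hc i j
        exact compl_subset_compl.2 subset_union_left
      have h4 : ∑ i ∈ S', ∑ j ∈ (B ∪ S')ᶜ, c i j = cutCap cU S := by
        rw [hmapc, hS', sum_map, cutCap]
        refine sum_congr rfl fun i _ => ?_
        rw [sum_map]
        rfl
      rw [h2, h4]
      linarith
    have h5 : θ * (B ∪ S').card ≤ cutCap c (B ∪ S') := by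
      by_cases h6 : 3 * (B ∪ S').card < N
      · by_contra hcon
        have h7 : B ∪ S' ∈ F := by
          rw [hF, mem_filter]
          exact ⟨mem_univ _, h6, (not_le.1 hcon).le⟩
        have h8 := hmax _ h7
        omega
      · have h7 := hcut (B ∪ S') (by omega) (by omega)
        refine le_trans (mul_le_mul_of_nonneg_left ?_ hθ.le) h7
        exact_mod_cast card_le_univ (B ∪ S')
    rw [hcardU] at h5
    push_cast at h5
    linarith
  have hphi : θ / N ≤ phi cU := by
    refine le_phi fun S hS hSc => ?_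
    have key : ∀ S : Finset U, S.Nonempty → S.card ≤ Sᶜ.card →
        θ / N * ((S.card : ℝ) * (Sᶜ.card : ℝ)) ≤ cutCap cU S := by
      intro S hS hS2
      refine le_trans ?_ (hexp S hS hS2)
      have h1 : (Sᶜ.card : ℝ) ≤ N := by
        have h2 : Sᶜ.card ≤ U.card := hUcard ▸ card_le_univ Sᶜ
        have h3 : U.card ≤ N := card_le_univ U
        exact_mod_cast h2.trans h3
      have h4 : θ / N * ((S.card : ℝ) * (Sᶜ.card : ℝ)) = θ * S.card * ((Sᶜ.card : ℝ) / N) := by
        ring
      rw [h4]
      have h5 : (Sᶜ.card : ℝ) / N ≤ 1 := by rw [div_le_one hN0]; exact h1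
      have h6 : 0 ≤ θ * S.card := by positivity
      nlinarith
    rcases le_total S.card Sᶜ.card with h1 | h1
    · exact key S hS h1
    · have h2 := key Sᶜ hSc (by rw [compl_compl]; exact h1)
      rw [compl_compl, cutCap_compl hcUs] at h2
      linarith [mul_comm (S.card : ℝ) (Sᶜ.card : ℝ)]
  have hphi0 : 0 < phi cU := lt_of_lt_of_le (by positivity) hphi
  have hgl0 : 0 < glValue cU := gl_pos hcU0 hcUs hphi0
  -- the relaxation
  have hd0 : ∀ i j, 0 ≤ d i j := by
    obtain ⟨⟨x, hx⟩, -⟩ := hd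
    exact fun i j => by rw [hx]; positivity
  have hneg : IsNegTypeSemimetric (fun i j : U => d i.1 j.1) := by
    obtain ⟨⟨x, hx⟩, htri⟩ := hd
    exact negType_of (fun i : U => x i.1) (fun i j => hx _ _) (fun i j k => htri _ _ _)
  have h1 := gl_mul_le hcU0 hneg
  have h2 : ∑ i : U, ∑ j : U, cU i j * d i.1 j.1 ≤ A * N := by
    refine le_trans ?_ hcost
    have h3 : ∑ i : U, ∑ j : U, cU i j * d i.1 j.1 = ∑ i ∈ U, ∑ j ∈ U, c i j * d i j := by
      rw [← sum_coe_sort U (fun i => ∑ j ∈ U, c i j * d i j)]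
      refine sum_congr rfl fun i _ => ?_
      rw [← sum_coe_sort U (fun j => c i j * d i j)]
    rw [h3]
    calc ∑ i ∈ U, ∑ j ∈ U, c i j * d i j ≤ ∑ i ∈ U, ∑ j, c i j * d i j :=
          sum_le_sum fun i _ => sum_le_sum_of_subset_of_nonneg (subset_univ _)
            fun j _ _ => mul_nonneg (hc i j) (hd0 i j)
      _ ≤ _ := sum_le_sum_of_subset_of_nonneg (subset_univ _)
            fun i _ _ => sum_nonneg fun j _ => mul_nonneg (hc i j) (hd0 i j)
  have h4 : (N : ℝ) ^ 2 / 4 ≤ ∑ i : U, ∑ j : U, d i.1 j.1 := by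
    have h5 : ∑ i : U, ∑ j : U, d i.1 j.1 = ∑ p ∈ U ×ˢ U, d p.1 p.2 := by
      rw [sum_product, ← sum_coe_sort U (fun i => ∑ j ∈ U, d i j)]
      refine sum_congr rfl fun i _ => ?_
      rw [← sum_coe_sort U (fun j => d i j)]
    rw [h5]
    set Bd := univ.filter fun p : V × V => d p.1 p.2 < 1 with hBd
    have h6 : (((U ×ˢ U) \ Bd).card : ℝ) ≤ ∑ p ∈ U ×ˢ U, d p.1 p.2 := by
      calc (((U ×ˢ U) \ Bd).card : ℝ) = ∑ p ∈ (U ×ˢ U) \ Bd, (1 : ℝ) := by simp
        _ ≤ ∑ p ∈ (U ×ˢ U) \ Bd, d p.1 p.2 := by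
            refine sum_le_sum fun p hp => ?_
            have h7 := (mem_sdiff.1 hp).2
            rw [hBd, mem_filter, not_and] at h7
            exact not_lt.1 (h7 (mem_univ _))
        _ ≤ _ := sum_le_sum_of_subset_of_nonneg sdiff_subset fun p _ _ => hd0 _ _
    refine le_trans ?_ h6
    have h8 : (U ×ˢ U).card ≤ ((U ×ˢ U) \ Bd).card + Bd.card := by
      have := card_le_card_sdiff_add_card (s := U ×ˢ U) (t := Bd)
      omega
    rw [card_product] at h8
    have h9 : (U.card : ℝ) * U.card ≤ (((U ×ˢ U) \ Bd).card : ℝ) + Bd.card := by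
      exact_mod_cast h8
    have h10 : 8 * (Bd.card : ℝ) ≤ (N : ℝ) ^ 2 := by exact_mod_cast hfar
    have h11 : 2 * (N : ℝ) ≤ 3 * U.card := by
      have : 2 * N ≤ 3 * U.card := by omega
      exact_mod_cast this
    nlinarith
  refine ⟨U, cU, hcU0, hcUs, fun i => h0 _, hgl0, ?_⟩
  have h5 : glValue cU * ((N : ℝ) ^ 2 / 4) ≤ A * N :=
    (mul_le_mul_of_nonneg_left h4 hgl0.le).trans (h1.trans h2)
  have h6 : glValue cU ≤ 4 * A / N := by
    rw [le_div_iff₀ hN0]
    have h7 : glValue cU * N * N ≤ 4 * A * N := by nlinarith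
    exact le_of_mul_le_mul_right h7 hN0
  calc θ / (4 * A) * glValue cU ≤ θ / (4 * A) * (4 * A / N) :=
        mul_le_mul_of_nonneg_left h6 (by positivity)
    _ = θ / N := by field_simp
    _ ≤ phi cU := hphi

/-- the number of points of the subinstance may be any larger number -/
theorem prune_fin {V : Type*} [Fintype V] [DecidableEq V] {c d : V → V → ℝ} {θ A : ℝ}
    (hc : ∀ i j, 0 ≤ c i j) (hs : ∀ i j, c i j = c j i) (h0 : ∀ i, c i i = 0)
    (hN : 2 ≤ Fintype.card V) (hθ : 0 < θ) (hA : 0 < A)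
    (hcut : ∀ S : Finset V, Fintype.card V ≤ 3 * S.card → 3 * S.card ≤ 2 * Fintype.card V →
      θ * Fintype.card V ≤ cutCap c S)
    (hd : IsNegTypeSemimetric d) (hcost : ∑ i, ∑ j, c i j * d i j ≤ A * Fintype.card V)
    (hfar : 8 * (univ.filter fun p : V × V => d p.1 p.2 < 1).card ≤ Fintype.card V ^ 2)
    {n : ℕ} (hn : Fintype.card V ≤ n) : HasGap (Fin n) (θ / (16 * A)) := by
  obtain ⟨U, hU⟩ := prune hc hs h0 hN hθ hA hcut hd hcost hfar
  have h1 := padding (by positivity) hU (n := n)
    ((Fintype.card_coe U).le.trans ((card_le_univ U).trans hn))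
  refine h1.mono (le_of_eq ?_)
  field_simp
  norm_num

end Vale.Agent.P318.H308
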